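import Vale.Agent.H23.Potts.Kron

/-
The polynomial behind the merge inequality (I) for the four state Potts model, written once
over an abstract set of operations.
-/

namespace Vale.Agent.H29.P154

open Vale.Agent.H23.Potts

/-- ring operations -/
structure Ops (α : Type) where
  add : α → α → α
  mul : α → α → α
  neg : α → α
  cst : ℤ → α

/-- operations on expressions -/
def peOps (k : ℕ) : Ops (PE k) := ⟨PE.add, PE.mul, PE.neg, PE.cst⟩

/-- operations on reals -/
noncomputable def rOps : Ops ℝ := ⟨fun a b => a + b, fun a b => a * b, fun a => -a,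
  fun z => (z : ℝ)⟩

section
variable {α : Type} (O : Ops α)

/-- subtraction -/
def sb (a b : α) : α := O.add a (O.neg b)
/-- square -/
def sq (a : α) : α := O.mul a a
/-- scalar multiple -/
def sm (z : ℤ) (a : α) : α := O.mul (O.cst z) a

/-- `u² + v² + w²` -/
def fS (u v w : α) : α := O.add (O.add (sq O u) (sq O v)) (sq O w)
/-- `u v w` -/
def fT (u v w : α) : α := O.mul (O.mul u v) w
/-- `u²v² + v²w² + w²u²` -/
def fR (u v w : α) : α :=
  O.add (O.add (sq O (O.mul u v)) (sq O (O.mul v w))) (sq O (O.mul w u))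

/-- `900 γ` homogenised to degree 5 -/
def fG (m S T R : α) : α :=
  O.add (O.mul m (O.add (sm O 900 (O.mul m T)) (O.add (sm O (-83) (sq O S)) (sm O (-135) R))))
    (sm O 156 (O.mul S T))

/-- `2700 h` homogenised to degree 6 -/
def fH (m S T R : α) : α :=
  let m2 := sq O m
  O.add
    (O.mul m2 (O.add (O.mul m2 (O.add (sm O 2700 m2) (sm O (-5616) S)))
      (O.add (sm O 2187 (O.mul m T)) (O.add (sm O (-276) (sq O S)) (sm O 24273 R)))))
    (O.add (O.mul S (O.add (sm O (-32715) (O.mul m T)) (O.add (sm O 5608 (sq O S))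
      (sm O (-23226) R)))) (sm O 97794 (sq O T)))

/-- `90000 C₀` homogenised to degree 4 -/
def fC0 (m Z S T R : α) : α :=
  O.add
    (O.mul Z (O.add (O.mul Z (O.add (O.mul Z (O.add (sm O (-179748) Z) (sm O 356427 m)))
        (O.add (sm O 216534 S) (sm O (-144711) (sq O m)))))
      (O.add (O.mul m (O.add (sm O (-395685) S) (sm O (-35739) (sq O m)))) (sm O (-387486) T))))
    (O.add (O.mul m (O.add (sm O 150750 (O.mul m S)) (sm O 1138527 T)))
      (O.add (sm O (-33526) (sq O S)) (sm O 2622 R)))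

/-- `90000 C₁` homogenised to degree 5 -/
def fC1 (m S T R : α) : α :=
  O.add (O.mul m (O.add (O.mul m (O.add (sm O 19062 (O.mul m S)) (sm O (-264339) T)))
    (O.add (sm O (-3832) (sq O S)) (sm O (-69537) R)))) (sm O 70500 (O.mul S T))

/-- normalisation -/
def fZ (M a1 a2 a3 N b1 b2 b3 : α) : α :=
  O.add (O.add (O.mul M N) (O.mul a1 b1)) (O.add (O.mul a2 b2) (O.mul a3 b3))
/-- Fourier coordinate of the product -/
def fW (M a1 a2 a3 N b1 b2 b3 : α) : α :=
  O.add (O.add (O.mul a1 N) (O.mul M b1)) (O.add (O.mul a2 b3) (O.mul a3 b2))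

/-- terms multiplying the product of the other normalisations -/
def fA (m Z S T R : α) : α :=
  O.add (sm O 10800 (O.mul (fG O Z S T R) (sq O m)))
    (sm O 27 (O.mul (sq O (sb O Z m)) (fC1 O m S T R)))
/-- terms multiplying the product of all normalisations -/
def fB (m Z S T R : α) : α :=
  O.add (sm O (-8100) (O.mul (fG O Z S T R) m))
    (sm O 27 (O.mul (sq O (sb O Z m)) (fC0 O m Z S T R)))

/-- the vector `(F₀, F₁, F₂, F₃)` at index `k`, homogenised to degree 6 -/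
def fF0 (M u S : α) : α := O.mul (sb O (sm O 9 (sq O u)) (sm O 3 S)) (sq O (sq O M))
/-- second -/
def fF1 (M u S : α) : α := O.mul (O.mul S (sb O (sm O 3 (sq O u)) S)) (sq O M)
/-- third -/
def fF2 (M v w R : α) : α := O.mul (sb O (sm O 9 (sq O (O.mul v w))) (sm O 3 R)) (sq O M)
/-- fourth -/
def fF3 (M u S T : α) : α := O.mul (O.mul T (sb O (sm O 9 (sq O u)) (sm O 3 S))) M

/-- one summand of the correction term -/
def fP (x0 x1 x2 x3 y0 y1 y2 y3 : α) : α :=
  O.add
    (O.add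
      (O.mul x0 (O.add (O.add (sm O (-11711) y0) (sm O 24371 y1))
        (O.add (sm O 3072 y2) (sm O (-132) y3))))
      (O.mul x1 (O.add (O.add (sm O 24371 y0) (sm O (-116018) y1))
        (O.add (sm O (-52098) y2) (sm O 9531 y3)))))
    (O.add
      (O.mul x2 (O.add (O.add (sm O 3072 y0) (sm O (-52098) y1))
        (O.add (sm O (-66702) y2) (sm O 38469 y3))))
      (O.mul x3 (O.add (O.add (sm O (-132) y0) (sm O 9531 y1))
        (O.add (sm O 38469 y2) (sm O 84006 y3)))))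

/-- the correction term at an index -/
def fPk (M u v w S T R N u' v' w' S' T' R' : α) : α :=
  fP O (fF0 O M u S) (fF1 O M u S) (fF2 O M v w R) (fF3 O M u S T)
    (fF0 O N u' S') (fF1 O N u' S') (fF2 O N v' w' R') (fF3 O N u' S' T')

/-- the right side -/
def fQ (M a1 a2 a3 N b1 b2 b3 : α) : α :=
  let S := fS O a1 a2 a3
  let T := fT O a1 a2 a3
  let R := fR O a1 a2 a3
  let S' := fS O b1 b2 b3
  let T' := fT O b1 b2 b3
  let R' := fR O b1 b2 b3
  O.add
    (sm O (-4) (O.add (O.mul (O.mul M (fG O M S T R)) (fH O N S' T' R'))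
      (O.mul (fH O M S T R) (O.mul N (fG O N S' T' R')))))
    (sm O (-12) (O.add (O.add (fPk O M a1 a2 a3 S T R N b1 b2 b3 S' T' R')
      (fPk O M a2 a3 a1 S T R N b2 b3 b1 S' T' R'))
      (fPk O M a3 a1 a2 S T R N b3 b1 b2 S' T' R')))

/-- the terms of one translation -/
def fAt (M a1 a2 a3 N b1 b2 b3 : α) : α :=
  let w1 := fW O M a1 a2 a3 N b1 b2 b3
  let w2 := fW O M a2 a3 a1 N b2 b3 b1
  let w3 := fW O M a3 a1 a2 N b3 b1 b2
  fA O (O.mul M N) (fZ O M a1 a2 a3 N b1 b2 b3) (fS O w1 w2 w3) (fT O w1 w2 w3) (fR O w1 w2 w3)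
/-- the terms of one translation -/
def fBt (M a1 a2 a3 N b1 b2 b3 : α) : α :=
  let w1 := fW O M a1 a2 a3 N b1 b2 b3
  let w2 := fW O M a2 a3 a1 N b2 b3 b1
  let w3 := fW O M a3 a1 a2 N b3 b1 b2
  fB O (O.mul M N) (fZ O M a1 a2 a3 N b1 b2 b3) (fS O w1 w2 w3) (fT O w1 w2 w3) (fR O w1 w2 w3)

/-- the whole polynomial -/
def fE (M a1 a2 a3 N b1 b2 b3 : α) : α :=
  let c1 := O.neg b1
  let c2 := O.neg b2
  let c3 := O.neg b3
  let Z0 := fZ O M a1 a2 a3 N b1 b2 b3
  let Z1 := fZ O M a1 a2 a3 N b1 c2 c3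
  let Z2 := fZ O M a1 a2 a3 N c1 b2 c3
  let Z3 := fZ O M a1 a2 a3 N c1 c2 b3
  let Z01 := O.mul Z0 Z1
  let Z23 := O.mul Z2 Z3
  O.add
    (O.add (O.mul (O.add (O.mul Z1 (fAt O M a1 a2 a3 N b1 b2 b3))
        (O.mul Z0 (fAt O M a1 a2 a3 N b1 c2 c3))) Z23)
      (O.mul (O.add (O.mul Z3 (fAt O M a1 a2 a3 N c1 b2 c3))
        (O.mul Z2 (fAt O M a1 a2 a3 N c1 c2 b3))) Z01))
    (O.mul (O.mul Z01 Z23)
      (O.add (O.add (O.add (fBt O M a1 a2 a3 N b1 b2 b3) (fBt O M a1 a2 a3 N b1 c2 c3))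
        (O.add (fBt O M a1 a2 a3 N c1 b2 c3) (fBt O M a1 a2 a3 N c1 c2 b3)))
        (fQ O M a1 a2 a3 N b1 b2 b3)))

end

/-- cone coordinates -/
def pM : PE 6 := PE.add (PE.add (PE.var 0) (PE.var 1)) (PE.add (PE.mul (PE.cst 3) (PE.var 2)) (PE.cst 1))
/-- cone coordinates -/
def pa1 : PE 6 := PE.add (PE.add (PE.var 0) (PE.var 1)) (PE.var 2)
/-- cone coordinates -/
def pa2 : PE 6 := PE.add (PE.var 0) (PE.var 2)
/-- cone coordinates -/
def pa3 : PE 6 := PE.add (PE.var 0) (PE.neg (PE.var 2))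
/-- cone coordinates -/
def pN : PE 6 := PE.add (PE.add (PE.var 3) (PE.var 4)) (PE.add (PE.mul (PE.cst 3) (PE.var 5)) (PE.cst 1))
/-- cone coordinates -/
def pb1 : PE 6 := PE.add (PE.add (PE.var 3) (PE.var 4)) (PE.var 5)
/-- cone coordinates -/
def pb2 : PE 6 := PE.add (PE.var 3) (PE.var 5)
/-- cone coordinates -/
def pb3 : PE 6 := PE.add (PE.var 3) (PE.neg (PE.var 5))

end Vale.Agent.H29.P154
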